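import Vale.Agent.P179.R2.H452.Ext

/-!
# Extension of the generalised decomposition numbers of a rational character: existence
-/

namespace P179H452

open Finset P179P P179C P179Y Subgroup P179H524 P179I

open P179X (pp SameSec)

open scoped Classical IsMulCommutative

universe v

set_option linter.unusedSectionVars false

section

variable {p : ℕ} [hp : Fact p.Prime] {k : Type v} [Field k] [CharP k p] {red : AA →+* k}
  {G : Type} [Group G] [Fintype G] {D : Subgroup G} {l : (G → k) → k}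
  {Φ : ∀ H : Subgroup G, Irr H} {aH bH : Subgroup G → ℕ} {ε : Subgroup G → ℤ} {κ₀ : k}

include hp in
/-- **the extension** -/
theorem exists_ext [IsAlgClosed k] [IsMulCommutative D] (h : LocR p red D l Φ aH bH ε κ₀)
    (hl : BP p D l) (hD : IsPGroup p D) (hab : D ≤ centralizer (D : Set G)) (hp2 : p ≠ 2)
    (he : ((centralizer (D : Set G)).relIndex (stabT D l) : k) ≠ 0) {a : ℕ}
    (ha : Nat.card D = p ^ a) {m : ℕ} (hmc : m.Coprime (Nat.card G))
    (hm1 : m ≡ 1 [MOD ordCompl[p] (Nat.card G)])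
    (hgen : ∀ i : ℕ, i ≡ 1 [MOD p] → ∃ t : ℕ, m ^ t ≡ i [MOD ordProj[p] (Nat.card G)])
    {χ : Irr G} (hχm : ∀ g, χ.1 (g ^ m) = χ.1 g) (L : ℕ)
    (hne : ∃ b₀ : Additive D, RegT D l (b₀.toMul : G) ∧ (b₀.toMul : G) ≠ 1) :
    ∃ (f : Additive D → AA) (κ : AA), RI f ∧ red κ ≠ 0 ∧
      (∀ b : Additive D, (RegT D l (b.toMul : G) ∧ (b.toMul : G) ≠ 1) →
        f b - κ * Ad p D Φ ε (b.toMul : G) χ ∈ QN p red L) ∧
      ∀ i : ℕ, i ≡ 1 [MOD p] → ∀ b, f (i • b) - f b ∈ QN p red L := by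
  obtain ⟨j, hj1, hj2, hj3, hj4, hj5⟩ := h.exists_jj hl hD hab
  obtain ⟨M, hM⟩ := hj4 (L + a)
  -- the elements which are not regular
  have hM' : ∀ u v : D, ∃ M : ℕ, (RegT D l (u : G) ∧ (u : G) ≠ 1) →
      ¬ (RegT D l (v : G) ∧ (v : G) ≠ 1) → ∀ m ≥ M,
        ∑ χ : Irr G, Ad p D Φ ε (u : G) χ * Psi j (p ^ m) χ (v : G) ∈ QN p red (L + a) := by
    intro u v
    by_cases hu : RegT D l (u : G) ∧ (u : G) ≠ 1
    · by_cases hv : ¬ (RegT D l (v : G) ∧ (v : G) ≠ 1)
      · obtain ⟨M, hM⟩ := h.orth hl hD hab j hj1 hj5 hu.1 hu.2 v.2 hv (L + a)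
        exact ⟨M, fun _ _ => hM⟩
      · exact ⟨0, fun _ h => absurd h hv⟩
    · exact ⟨0, fun h => absurd h hu⟩
  choose M' hM' using hM'
  set n := M + ∑ u, ∑ v, M' u v + (L + a + (Nat.card G).factorization p) with hn
  have hmM' : ∀ u v, M' u v ≤ n := by
    intro u v
    have h1 : M' u v ≤ ∑ v, M' u v := Finset.single_le_sum (fun _ _ => Nat.zero_le _) (mem_univ v)
    have h2 : ∑ v, M' u v ≤ ∑ u, ∑ v, M' u v :=
      Finset.single_le_sum (f := fun u => ∑ v, M' u v) (fun _ _ => Nat.zero_le _) (mem_univ u)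
    omega
  have hjm := hM n (by omega)
  have hcardA : Fintype.card (Additive D) = p ^ a := by
    rw [← ha, Nat.card_eq_fintype_card, Fintype.card_congr (Additive.toMul (α := D))]
  -- the coefficients
  have hpair : ∀ χ : Irr G, ∃ c : AA, (p : AA) ^ a * c =
      ∑ b : Additive D, Psi j (p ^ n) χ (b.toMul : G) := by
    intro χ
    obtain ⟨c, hc⟩ := (RI_Psi j hj1 (p ^ n) χ).pair 0
    refine ⟨c, ?_⟩
    rw [hcardA] at hc
    push_cast at hc
    rw [hc]
    exact Finset.sum_congr rfl fun b _ => by rw [lamA_zero, mul_one]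
  choose mχ hmχ using hpair
  -- the twists
  have hexp : ∀ i : ℕ, i ≡ 1 [MOD p] → ∃ t : ℕ, (m ^ t).Coprime (Nat.card G) ∧
      m ^ t ≡ 1 [MOD ordCompl[p] (Nat.card G)] ∧ m ^ t ≡ i [MOD ordProj[p] (Nat.card G)] := by
    intro i hi
    obtain ⟨t, ht⟩ := hgen i hi
    refine ⟨t, Nat.Coprime.pow_left t hmc, ?_, ht⟩
    have := hm1.pow t
    rwa [one_pow] at this
  have hpow : ∀ t : ℕ, ∀ g, χ.1 (g ^ m ^ t) = χ.1 g := by
    intro t
    induction t with
    | zero => intro g; simp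
    | succ t ih =>
      intro g
      rw [pow_succ, pow_mul, hχm, ih]
  have hTN : stabT D l ≤ normalizer (D : Set G) := stabT_le_norm D l
  refine ext_abs (p := p) (red := red) hp2 (N := L)
    (fun b : Additive D => RegT D l (b.toMul : G) ∧ (b.toMul : G) ≠ 1)
    (fun (χ : Irr G) (b : Additive D) => AvT D (stabT D l) (Psi j (p ^ n) χ) (b.toMul : G))
    (fun χ b => Ad p D Φ ε (b.toMul : G) χ)
    (fun b => CU p D (stabT D l) Φ ε j n (b.toMul : G)) mχ
    (fun χ => RI_AvT hTN (RI_Psi j hj1 (p ^ n) χ)) ?_ ?_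
    (((centralizer (D : Set G)).relIndex (stabT D l) : k) *
      (κ₀ * l (WW D (fun g => red (j g)))) ^ p ^ n) ?_ ?_ ?_ hne χ ?_
  · intro χ b hb
    exact QN_mono (by omega) (h.avT_sub hl j hjm hb.1 hb.2 χ)
  · intro b₀ hb₀
    set u : G := (b₀.toMul : G) with hu
    have huR : RegT D l u := hb₀.1
    have hu1 : u ≠ 1 := hb₀.2
    set Cu := CU p D (stabT D l) Φ ε j n u with hCu
    set F : Irr G → AA := fun χ => AvT D (stabT D l) (Psi j (p ^ n) χ) u with hF
    have hFu : ∀ χ, F χ - Cu * Ad p D Φ ε u χ ∈ QN p red (L + a) := fun χ =>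
      h.avT_sub hl j hjm huR hu1 χ
    set w : G → AA := fun v => (ε (centralizer {v}) : AA) * cc p Φ j n (centralizer {v}) with hw
    have hwinv : ∀ v, w v⁻¹ = w v := by
      intro v
      simp only [hw, cz_inv]
    have horb := orb_sum' huR hu1 w (Nat.card D : AA)
    simp only [hwinv] at horb
    refine mem_QN_of_mul (a := a) ?_
    -- the difference
    have key : (p : AA) ^ a * ((∑ χ, F χ * mχ χ) - Cu ^ 2) =
        ∑ b : Additive D, ((∑ χ, F χ * Psi j (p ^ n) χ (b.toMul : G)) -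
          Cu * (if b = 0 then 0 else w (b.toMul : G) *
            (if ∃ t ∈ stabT D l, t * u * t⁻¹ = (b.toMul : G)⁻¹ then (Nat.card D : AA) else 0))) := by
      rw [Finset.sum_sub_distrib, ← Finset.mul_sum, horb, ha]
      have h1 : AvT D (stabT D l) w u = Cu := rfl
      rw [h1, mul_sub, Finset.mul_sum, Finset.sum_comm]
      congr 1
      · refine Finset.sum_congr rfl fun χ _ => ?_
        rw [← Finset.mul_sum, ← hmχ]
        ring
      · push_cast; ring
    rw [key]
    refine Ideal.sum_mem _ fun b _ => ?_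
    by_cases hb : RegT D l (b.toMul : G) ∧ (b.toMul : G) ≠ 1
    · have hb0 : b ≠ 0 := by
        rintro rfl
        exact hb.2 rfl
      rw [if_neg hb0]
      have hgram := h.gram hl hD hab huR hu1 hb.1 hb.2
      rw [← hgram]
      have h1 : (∑ χ, F χ * Psi j (p ^ n) χ (b.toMul : G)) - Cu * (w (b.toMul : G) *
          ∑ χ, Ad p D Φ ε u χ * Ad p D Φ ε (b.toMul : G) χ) =
          ∑ χ, ((F χ - Cu * Ad p D Φ ε u χ) * Psi j (p ^ n) χ (b.toMul : G) +
            Cu * Ad p D Φ ε u χ * (Psi j (p ^ n) χ (b.toMul : G) -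
              w (b.toMul : G) * Ad p D Φ ε (b.toMul : G) χ)) := by
        rw [Finset.mul_sum, Finset.mul_sum, ← Finset.sum_sub_distrib]
        exact Finset.sum_congr rfl fun χ _ => by ring
      rw [h1]
      refine Ideal.sum_mem _ fun χ _ => Ideal.add_mem _ (Ideal.mul_mem_right _ _ (hFu χ))
        (Ideal.mul_mem_left _ _ ?_)
      have h2 := hjm _ hb.1 hb.2 χ
      have h3 : w (b.toMul : G) * Ad p D Φ ε (b.toMul : G) χ = cc p Φ j n (centralizer {(b.toMul : G)}) *
          dnA p (centralizer {(b.toMul : G)}) (Nat.card D) (Φ (centralizer {(b.toMul : G)})).1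
            (b.toMul : G) χ.1 := by
        simp only [hw]
        unfold Ad
        have h4 := congrArg (fun n : ℤ => (n : AA)) (h.sq hb.1 hb.2)
        push_cast at h4
        linear_combination (cc p Φ j n (centralizer {(b.toMul : G)}) *
          dnA p (centralizer {(b.toMul : G)}) (Nat.card D) (Φ (centralizer {(b.toMul : G)})).1
            (b.toMul : G) χ.1) * h4
      rw [h3]
      exact h2
    · have h0 : (if b = 0 then 0 else w (b.toMul : G) *
            (if ∃ t ∈ stabT D l, t * u * t⁻¹ = (b.toMul : G)⁻¹ then (Nat.card D : AA) else 0)) = 0 := by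
        by_cases hb0 : b = 0
        · rw [if_pos hb0]
        · rw [if_neg hb0, if_neg, mul_zero]
          rintro ⟨t, ht, htu⟩
          apply hb
          have h1 := RegT.inv' (RegT.conj' huR ht)
          rw [htu, inv_inv] at h1
          refine ⟨h1, fun h2 => hb0 ?_⟩
          apply Additive.toMul.injective
          exact Subtype.ext h2
      rw [h0, mul_zero, sub_zero]
      have h1 : ∑ χ, F χ * Psi j (p ^ n) χ (b.toMul : G) =
          ∑ χ, (F χ - Cu * Ad p D Φ ε u χ) * Psi j (p ^ n) χ (b.toMul : G) +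
            Cu * ∑ χ, Ad p D Φ ε u χ * Psi j (p ^ n) χ (b.toMul : G) := by
        rw [Finset.mul_sum, ← Finset.sum_add_distrib]
        refine Finset.sum_congr rfl fun χ _ => ?_
        ring
      rw [h1]
      refine Ideal.add_mem _ (Ideal.sum_mem _ fun χ _ => Ideal.mul_mem_right _ _ (hFu χ)) ?_
      exact Ideal.mul_mem_left _ _ (hM' b₀.toMul b.toMul hb₀ hb n (hmM' _ _))
  · exact mul_ne_zero he (pow_ne_zero _ (mul_ne_zero h.ne hj2))
  · intro b hb
    exact h.red_CU hl hD hab hp2 j hj1 hj3 n hb.1 hb.2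
  · -- the invariance of the sum over the characters
    intro i hi b
    obtain ⟨t, hc1, hc2, hc3⟩ := hexp i hi
    have hF : ∀ χ : Irr G, AvT D (stabT D l) (Psi j (p ^ n) χ) ((i • b).toMul : G) -
        AvT D (stabT D l) (Psi j (p ^ n) (tw hc1 χ)) (b.toMul : G) ∈ QN p red (L + a) := by
      intro χ
      exact AvT_tw hTN hD hc1 hc2 hi hc3 j hj1 χ b.toMul.2 (L + a) n (by omega)
    have hm' : ∀ χ : Irr G, mχ (tw hc1 χ) - mχ χ ∈ QN p red L := by
      intro χ
      refine mem_QN_of_mul (a := a) ?_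
      rw [mul_sub, hmχ, hmχ]
      rw [← Equiv.sum_comp (nsmulCoprime (coprime_card hcardA hi))
        (fun b : Additive D => Psi j (p ^ n) χ (b.toMul : G)), ← Finset.sum_sub_distrib]
      refine Ideal.sum_mem _ fun b _ => ?_
      rw [← neg_sub]
      exact neg_mem (Psi_tw hD hc1 hc2 hi hc3 j hj1 χ b.toMul.2 (L + a) n (by omega))
    have h1 : ∑ χ : Irr G, AvT D (stabT D l) (Psi j (p ^ n) χ) (b.toMul : G) * mχ χ =
        ∑ χ : Irr G, AvT D (stabT D l) (Psi j (p ^ n) (tw hc1 χ)) (b.toMul : G) *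
          mχ (tw hc1 χ) :=
      (Equiv.sum_comp (Equiv.ofBijective _ (tw_bijective hc1)) _).symm
    rw [h1, ← Finset.sum_sub_distrib]
    refine Ideal.sum_mem _ fun χ _ => ?_
    have h2 : AvT D (stabT D l) (Psi j (p ^ n) χ) ((i • b).toMul : G) * mχ χ -
        AvT D (stabT D l) (Psi j (p ^ n) (tw hc1 χ)) (b.toMul : G) * mχ (tw hc1 χ) =
        (AvT D (stabT D l) (Psi j (p ^ n) χ) ((i • b).toMul : G) -
          AvT D (stabT D l) (Psi j (p ^ n) (tw hc1 χ)) (b.toMul : G)) * mχ χ -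
        AvT D (stabT D l) (Psi j (p ^ n) (tw hc1 χ)) (b.toMul : G) *
          (mχ (tw hc1 χ) - mχ χ) := by ring
    rw [h2]
    exact sub_mem (Ideal.mul_mem_right _ _ (QN_mono (by omega) (hF χ)))
      (Ideal.mul_mem_left _ _ (hm' χ))
  · intro i hi b
    obtain ⟨t, hc1, hc2, hc3⟩ := hexp i hi
    have h1 := AvT_tw (red := red) hTN hD hc1 hc2 hi hc3 j hj1 χ b.toMul.2 L n (by omega)
    have h2 : tw hc1 χ = χ := Subtype.ext (funext fun g => hpow t g)
    rw [h2] at h1
    exact h1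

end

end P179H452
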